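import Mathlib

/-!
# Artin's conjecture needs only one witness prime for every base

If `a` were a primitive root for finitely many primes only, a suitable odd power `a ^ m` would
be a primitive root for none of those that are not of the form `2 ^ k + 1`, and `log (a ^ m)`
would exceed all of them.
-/

namespace Vale.Agent.Results.P016.OneWitness

/-- A prime `p` not of the form `2 ^ k + 1` has an odd prime factor of `p - 1`. -/
lemma exists_odd_factor {p : ℕ} (hp : p.Prime) (h : ∀ k : ℕ, p ≠ 2 ^ k + 1) :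
    ∃ l : ℕ, l.Prime ∧ l ≠ 2 ∧ l ∣ p - 1 := by
  by_contra hc
  simp only [not_exists, not_and, ne_eq] at hc
  have h1 : p - 1 ≠ 0 := by have := hp.two_le; omega
  have := Nat.eq_prime_pow_of_unique_prime_dvd h1 (p := 2) fun {d} hd hdvd =>
    by_contra fun hne => hc d hd hne hdvd
  exact h (p - 1).primeFactorsList.length (by have := hp.two_le; omega)

/-- Artin's conjecture for all bases is equivalent to the existence, for every admissible base
`a`, of one witness prime `p` that is not of the form `2 ^ k + 1` or exceeds `log |a|`. -/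
theorem result :
    (∀ a : ℤ, a ≠ -1 → ¬ IsSquare a →
        {p : ℕ | p.Prime ∧ ¬ (p : ℤ) ∣ a ∧ orderOf (a : ZMod p) = p - 1}.Infinite) ↔
      ∀ a : ℤ, a ≠ -1 → ¬ IsSquare a → ∃ p : ℕ, p.Prime ∧ ¬ (p : ℤ) ∣ a ∧
        orderOf (a : ZMod p) = p - 1 ∧
        ((∀ k : ℕ, p ≠ 2 ^ k + 1) ∨ Nat.log 2 a.natAbs < p) := by
  classical
  constructor
  · intro h a ha1 hsq
    obtain ⟨p, ⟨hp, hpa, ho⟩, hbig⟩ := (h a ha1 hsq).exists_gt (Nat.log 2 a.natAbs)
    exact ⟨p, hp, hpa, ho, Or.inr hbig⟩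
  intro h a ha1 hsq hfin
  set S := hfin.toFinset
  set T := S.filter fun p => ∀ k : ℕ, p ≠ 2 ^ k + 1
  have hT : ∀ p ∈ T, ∃ l : ℕ, l.Prime ∧ l ≠ 2 ∧ l ∣ p - 1 := fun p hp => by
    obtain ⟨hmem, hk⟩ := Finset.mem_filter.1 hp
    exact exists_odd_factor (hfin.mem_toFinset.1 hmem).1 hk
  choose! l hl using hT
  set M := ∏ p ∈ T, l p
  have hM : Odd M := Finset.prod_induction _ Odd (fun _ _ => Odd.mul) odd_one fun p hp =>
    (hl p hp).1.odd_of_ne_two (hl p hp).2.1
  set m := M * (2 * S.sup id + 1)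
  have hm : Odd m := hM.mul (odd_two_mul_add_one _)
  have hm0 : m ≠ 0 := hm.pos.ne'
  have hbig : S.sup id ≤ m := by
    have := Nat.le_mul_of_pos_left (2 * S.sup id + 1) hM.pos
    omega
  have habs : 2 ≤ a.natAbs := by
    by_contra hlt
    have : a = 0 ∨ a = 1 ∨ a = -1 := by omega
    rcases this with rfl | rfl | rfl
    · exact hsq IsSquare.zero
    · exact hsq IsSquare.one
    · exact ha1 rfl
  have h1 : a ^ m ≠ -1 := fun hc => by
    have := congrArg Int.natAbs hc
    rw [Int.natAbs_pow] at this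
    have := (Nat.le_self_pow hm0 a.natAbs).trans this.le
    simp at this
    omega
  have h2 : ¬ IsSquare (a ^ m) := by
    obtain ⟨j, hj⟩ := hm
    rintro ⟨b, hb⟩
    rw [hj] at hb
    obtain ⟨c, rfl⟩ : a ^ j ∣ b := by
      refine (Int.pow_dvd_pow_iff two_ne_zero).1 ⟨a, ?_⟩
      rw [← pow_mul, sq, ← hb]; ring
    have h0 : a ≠ 0 := by omega
    refine hsq ⟨c, mul_left_cancel₀ (pow_ne_zero (2 * j) h0) ?_⟩
    calc a ^ (2 * j) * a = a ^ (2 * j + 1) := by ring
      _ = a ^ j * c * (a ^ j * c) := hb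
      _ = a ^ (2 * j) * (c * c) := by ring
  obtain ⟨q, hq, hqa, hord, hcase⟩ := h (a ^ m) h1 h2
  have hqa' : ¬ (q : ℤ) ∣ a := fun hd => hqa (hd.trans (dvd_pow_self a hm0))
  have : Fact q.Prime := ⟨hq⟩
  push_cast at hord
  have hx : (a : ZMod q) ≠ 0 := by rwa [ne_eq, ZMod.intCast_zmod_eq_zero_iff_dvd]
  have hxd : orderOf (a : ZMod q) ∣ q - 1 :=
    orderOf_dvd_of_pow_eq_one (ZMod.pow_card_sub_one_eq_one hx)
  have hx1 : orderOf (a : ZMod q) = q - 1 :=
    Nat.dvd_antisymm hxd (hord ▸ orderOf_pow_dvd m)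
  have hqS : q ∈ S := hfin.mem_toFinset.2 ⟨hq, hqa', hx1⟩
  rcases hcase with hk | hk
  · have hqT : q ∈ T := Finset.mem_filter.2 ⟨hqS, hk⟩
    rw [orderOf_pow' (a : ZMod q) hm0, hx1] at hord
    have hq1 : q - 1 ≠ 0 := by have := hq.two_le; omega
    have hg : Nat.gcd (q - 1) m = 1 := by
      rcases Nat.div_eq_self.1 hord with h0 | h0
      · exact absurd h0 hq1
      · exact h0
    have hdvd : l q ∣ Nat.gcd (q - 1) m :=
      Nat.dvd_gcd (hl q hqT).2.2
        ((Finset.dvd_prod_of_mem l hqT).trans (dvd_mul_right M _))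
    rw [hg] at hdvd
    exact (hl q hqT).1.one_lt.ne' (Nat.dvd_one.1 hdvd)
  · have hlog : m ≤ Nat.log 2 (a ^ m).natAbs := by
      rw [Int.natAbs_pow]
      exact Nat.le_log_of_pow_le one_lt_two (Nat.pow_le_pow_left habs m)
    have : q ≤ S.sup id := Finset.le_sup (f := id) hqS
    omega

end Vale.Agent.Results.P016.OneWitness
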